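import Mathlib
import Vale.Agent.P109.F674.Model

/-! Sanity check (not used by any hand-in): the definitions of `F674/Model.lean` are satisfied by
the closed interval `[0,1]` (a manifold with boundary) with Lebesgue measure and the identity. -/

open MeasureTheory Set
open scoped ContDiff Manifold

namespace Vale.Agent.P109.Q764

open Smooth

/-- `ℝ ≃ᵐ EuclideanSpace ℝ (Fin 1)` -/
noncomputable def toE : ℝ ≃ᵐ EuclideanSpace ℝ (Fin 1) :=
  (MeasurableEquiv.funUnique (Fin 1) ℝ).symm.trans (MeasurableEquiv.toLp 2 (Fin 1 → ℝ))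

theorem toE_apply (x : ℝ) : toE x = WithLp.toLp 2 (fun _ => x) := rfl

theorem mp_toE : MeasurePreserving toE (volume : Measure ℝ) volume :=
  (EuclideanSpace.volume_preserving_symm_measurableEquiv_toLp (Fin 1)).symm.comp
    ((volume_preserving_funUnique (Fin 1) ℝ).symm)

instance : Fact ((0 : ℝ) < 1) := ⟨zero_lt_one⟩

theorem map_of (g : ℝ → EuclideanSpace ℝ (Fin 1)) (hg : MeasurePreserving g volume volume)
    (s : Set (Icc (0 : ℝ) 1)) (hs : MeasurableSet s) (t : Set (EuclideanSpace ℝ (Fin 1)))
    (ht : MeasurableSet t) (hst : g ⁻¹' t = (Subtype.val '' s)) :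
    ((volume : Measure (Icc (0 : ℝ) 1)).restrict s).map (fun z => g z.1) = volume.restrict t := by
  have e1 : ((volume : Measure (Icc (0 : ℝ) 1)).restrict s).map Subtype.val =
      (volume : Measure ℝ).restrict (Subtype.val '' s) := by
    have hm : MeasurableSet (Icc (0 : ℝ) 1) := measurableSet_Icc
    ext u hu
    rw [Measure.map_apply measurable_subtype_coe hu,
      Measure.restrict_apply (measurable_subtype_coe hu), Measure.restrict_apply hu]
    rw [show (volume : Measure (Icc (0 : ℝ) 1)) = Measure.comap Subtype.val volume from rfl]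
    rw [(MeasurableEmbedding.subtype_coe hm).comap_apply]
    congr 1
    rw [image_preimage_inter]
  have hmeas : Measurable (Subtype.val : Icc (0 : ℝ) 1 → ℝ) := measurable_subtype_coe
  calc ((volume : Measure (Icc (0 : ℝ) 1)).restrict s).map (fun z => g z.1)
      = (((volume : Measure (Icc (0 : ℝ) 1)).restrict s).map Subtype.val).map g := by
        rw [Measure.map_map hg.measurable hmeas]; rfl
    _ = ((volume : Measure ℝ).restrict (g ⁻¹' t)).map g := by rw [e1, hst]
    _ = volume.restrict t := by
        rw [← Measure.restrict_map hg.measurable ht, hg.map_eq]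

theorem target_eq (e : OpenPartialHomeomorph (Icc (0 : ℝ) 1) (EuclideanHalfSpace 1))
    (he : e.target = {z : EuclideanHalfSpace 1 | z.val 0 < 1 - 0}) :
    (e.extend (𝓡∂ 1)).target = {w : EuclideanSpace ℝ (Fin 1) | 0 ≤ w 0 ∧ w 0 < 1} := by
  rw [OpenPartialHomeomorph.extend_target, he]
  ext w
  simp only [mem_inter_iff, mem_preimage, mem_range]
  constructor
  · rintro ⟨h1, y, rfl⟩
    refine ⟨y.2, ?_⟩
    have h2 : (𝓡∂ 1).symm ((𝓡∂ 1) y) = y := (𝓡∂ 1).left_inv y
    rw [h2] at h1
    simpa using h1
  · rintro ⟨h1, h2⟩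
    have h3 : (𝓡∂ 1).symm ((𝓡∂ 1) (⟨w, h1⟩ : EuclideanHalfSpace 1)) = ⟨w, h1⟩ := (𝓡∂ 1).left_inv _
    have h4 : (𝓡∂ 1) (⟨w, h1⟩ : EuclideanHalfSpace 1) = w := rfl
    refine ⟨?_, ⟨w, h1⟩, h4⟩
    rw [h4] at h3
    rw [h3]
    simpa using h2

theorem svp : SmoothPositiveVolume (𝓡∂ 1) (Icc (0 : ℝ) 1) volume := by
  have hcoord : Measurable (fun w : EuclideanSpace ℝ (Fin 1) => w 0) :=
    (EuclideanSpace.proj (𝕜 := ℝ) (0 : Fin 1)).continuous.measurable
  have ht : MeasurableSet {w : EuclideanSpace ℝ (Fin 1) | 0 ≤ w 0 ∧ w 0 < 1} :=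
    (measurableSet_le measurable_const hcoord).inter (measurableSet_lt hcoord measurable_const)
  have hval : Measurable (Subtype.val : Icc (0 : ℝ) 1 → ℝ) := measurable_subtype_coe
  intro e he
  refine ⟨fun _ => 1, contDiffOn_const, fun _ _ => one_pos, ?_⟩
  simp only [ENNReal.ofReal_one, withDensity_const, one_smul]
  rcases he with rfl | he
  · rw [target_eq _ rfl]
    have hg : MeasurePreserving (fun x : ℝ => toE (x - 0)) volume volume :=
      mp_toE.comp (measurePreserving_sub_right volume 0)
    refine map_of _ hg _ (measurableSet_lt hval measurable_const) _ ht ?_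
    ext x
    constructor
    · rintro ⟨h1, h2⟩
      simp only [toE_apply] at h1 h2
      have h1' : 0 ≤ x - 0 := h1
      have h2' : x - 0 < 1 := h2
      exact ⟨⟨x, by linarith, by linarith⟩, show x < 1 by linarith, rfl⟩
    · rintro ⟨z, hz, rfl⟩
      have h1 := z.2.1
      have h2 : z.1 < 1 := hz
      exact ⟨by simpa [toE_apply] using h1, by simpa [toE_apply] using h2⟩
  · have he' : e = IccRightChart 0 1 := he
    subst he'
    rw [target_eq _ rfl]
    have hg : MeasurePreserving (fun x : ℝ => toE (1 - x)) volume volume :=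
      mp_toE.comp (Measure.measurePreserving_sub_left volume 1)
    refine map_of _ hg _ (measurableSet_lt measurable_const hval) _ ht ?_
    ext x
    constructor
    · rintro ⟨h1, h2⟩
      have h1' : 0 ≤ 1 - x := h1
      have h2' : 1 - x < 1 := h2
      exact ⟨⟨x, by linarith, by linarith⟩, show (0 : ℝ) < x by linarith, rfl⟩
    · rintro ⟨z, hz, rfl⟩
      have h1 := z.2.2
      have h2 : 0 < z.1 := hz
      exact ⟨show 0 ≤ 1 - z.1 by linarith, show 1 - z.1 < 1 by linarith⟩

/-- The identity of `[0,1]` with Lebesgue measure has a smooth positive-volume model. -/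
theorem hasModel_id : HasModelOn (𝓡∂ 1) (volume : Measure (Icc (0 : ℝ) 1)) id := by
  refine ⟨Icc (0 : ℝ) 1, inferInstance, inferInstance, inferInstance, volume, id,
    ⟨inferInstance, inferInstance, inferInstance, inferInstance⟩, inferInstance, ?_, svp,
    ⟨Diffeomorph.refl _ _ _, rfl⟩, MeasurePreserving.id _, ?_⟩
  · constructor
    rw [show (volume : Measure (Icc (0 : ℝ) 1)) = Measure.comap Subtype.val volume from rfl,
      (MeasurableEmbedding.subtype_coe measurableSet_Icc).comap_apply]
    simp only [image_univ, Subtype.range_coe]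
    simp
  · refine ⟨univ, univ, MeasurableSet.univ, MeasurableSet.univ, by simp, by simp, rfl, rfl,
      MeasurableEquiv.refl _, fun _ _ => rfl, ?_⟩
    exact Measure.map_id

end Vale.Agent.P109.Q764
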